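import Mathlib

/-!
# Two sided closed sets: the complement has exactly two components
-/

open Set Metric Topology Filter

namespace P073.JBs

variable {T : Type} [TopologicalSpace T]

/-- local two sided structure of `S` at the point `x` -/
structure Side (S : Set T) (x : T) (U P M : Set T) : Prop where
  isOpen : IsOpen U
  mem : x ∈ U
  pc : IsPreconnected P
  mc : IsPreconnected M
  eq : U \ S = P ∪ M
  clo : ∀ y ∈ S ∩ U, y ∈ closure P ∧ y ∈ closure M

theorem Side.p_sub {S : Set T} {x : T} {U P M : Set T} (h : Side S x U P M) : P ⊆ Sᶜ := by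
  intro y hy
  have : y ∈ U \ S := by rw [h.eq]; exact Or.inl hy
  exact this.2

theorem Side.m_sub {S : Set T} {x : T} {U P M : Set T} (h : Side S x U P M) : M ⊆ Sᶜ := by
  intro y hy
  have : y ∈ U \ S := by rw [h.eq]; exact Or.inr hy
  exact this.2

theorem sub_comp {S P : Set T} {y z : T} (hP : IsPreconnected P) (hPS : P ⊆ Sᶜ) (hz : z ∈ P)
    (hzy : z ∈ connectedComponentIn Sᶜ y) : P ⊆ connectedComponentIn Sᶜ y := by
  rw [connectedComponentIn_eq hzy]
  exact hP.subset_connectedComponentIn hz hPS

/-- a component whose closure contains `x` contains one of the two sides -/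
theorem Side.sub_or {S : Set T} {x : T} {U P M : Set T} (h : Side S x U P M) {y z : T}
    (hz : z ∈ U) (hc : z ∈ closure (connectedComponentIn Sᶜ y)) :
    P ⊆ connectedComponentIn Sᶜ y ∨ M ⊆ connectedComponentIn Sᶜ y := by
  obtain ⟨w, hwU, hwK⟩ := mem_closure_iff.1 hc U h.isOpen hz
  have h1 : w ∈ U \ S := ⟨hwU, connectedComponentIn_subset _ _ hwK⟩
  rw [h.eq] at h1
  rcases h1 with h1 | h1
  · exact Or.inl (sub_comp h.pc h.p_sub h1 hwK)
  · exact Or.inr (sub_comp h.mc h.m_sub h1 hwK)

variable [LocallyConnectedSpace T] [PreconnectedSpace T]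

omit [PreconnectedSpace T] in
theorem closure_comp_sub {S : Set T} (hS : IsClosed S) (y : T) :
    closure (connectedComponentIn Sᶜ y) ⊆ S ∪ connectedComponentIn Sᶜ y := by
  intro z hz
  by_cases hzS : z ∈ S
  · exact Or.inl hzS
  · right
    have ho : IsOpen (connectedComponentIn Sᶜ z) := hS.isOpen_compl.connectedComponentIn
    obtain ⟨w, hw1, hw2⟩ := mem_closure_iff.1 hz _ ho (mem_connectedComponentIn hzS)
    rw [connectedComponentIn_eq hw2, ← connectedComponentIn_eq hw1]
    exact mem_connectedComponentIn hzS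

/-- every component of the complement has all of `S` in its closure -/
theorem subset_closure_comp {S : Set T} (hS : IsClosed S) (hSc : IsConnected S)
    (hside : ∀ x ∈ S, ∃ U P M, Side S x U P M) {y : T} (hy : y ∉ S) :
    S ⊆ closure (connectedComponentIn Sᶜ y) := by
  set K := connectedComponentIn Sᶜ y with hK
  have hKo : IsOpen K := hS.isOpen_compl.connectedComponentIn
  have hne : (S ∩ closure K).Nonempty := by
    by_contra hemp
    rw [not_nonempty_iff_eq_empty] at hemp
    have hcl : closure K ⊆ K := by
      intro z hz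
      rcases closure_comp_sub hS y hz with h | h
      · exfalso
        have : z ∈ S ∩ closure K := ⟨h, hz⟩
        rw [hemp] at this
        exact this
      · exact h
    have hclopen : IsClopen K := ⟨isClosed_of_closure_subset hcl, hKo⟩
    rcases isClopen_iff.1 hclopen with h | h
    · have : y ∈ K := mem_connectedComponentIn hy
      rw [h] at this
      exact this
    · obtain ⟨s, hs⟩ := hSc.nonempty
      have : s ∈ K := by rw [h]; exact mem_univ s
      exact connectedComponentIn_subset _ _ this hs
  -- the open set of points near which `S` lies in the closure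
  let V : Set T := interior (Sᶜ ∪ closure K)
  have hV : S ∩ closure K ⊆ V := by
    rintro x ⟨hxS, hxK⟩
    obtain ⟨U, P, M, h⟩ := hside x hxS
    refine mem_interior.2 ⟨U, ?_, h.isOpen, h.mem⟩
    intro z hz
    by_cases hzS : z ∈ S
    · right
      rcases h.sub_or h.mem hxK with h1 | h1
      · exact closure_mono h1 (h.clo z ⟨hzS, hz⟩).1
      · exact closure_mono h1 (h.clo z ⟨hzS, hz⟩).2
    · exact Or.inl hzS
  by_contra hn
  obtain ⟨s, hsS, hsK⟩ := not_subset.1 hn
  have hcov : S ⊆ V ∪ (closure K)ᶜ := by
    intro z hz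
    by_cases hzK : z ∈ closure K
    · exact Or.inl (hV ⟨hz, hzK⟩)
    · exact Or.inr hzK
  obtain ⟨a, haS, haK⟩ := hne
  obtain ⟨w, hwS, hwV, hwK⟩ := hSc.isPreconnected V (closure K)ᶜ isOpen_interior
    isClosed_closure.isOpen_compl hcov ⟨a, haS, hV ⟨haS, haK⟩⟩ ⟨s, hsS, hsK⟩
  rcases interior_subset hwV with h | h
  · exact h hwS
  · exact hwK h

theorem frontier_comp {S : Set T} (hS : IsClosed S) (hSc : IsConnected S)
    (hside : ∀ x ∈ S, ∃ U P M, Side S x U P M) {y : T} (hy : y ∉ S) :
    frontier (connectedComponentIn Sᶜ y) = S := by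
  have hKo : IsOpen (connectedComponentIn Sᶜ y) := hS.isOpen_compl.connectedComponentIn
  rw [hKo.frontier_eq]
  apply Subset.antisymm
  · rintro z ⟨h1, h2⟩
    rcases closure_comp_sub hS y h1 with h | h
    · exact h
    · exact absurd h h2
  · intro z hz
    exact ⟨subset_closure_comp hS hSc hside hy hz, fun h => connectedComponentIn_subset _ _ h hz⟩

/-- there are at most two components -/
theorem comp_eq_or {S : Set T} (hS : IsClosed S) (hSc : IsConnected S)
    (hside : ∀ x ∈ S, ∃ U P M, Side S x U P M) {x : T} (hx : x ∈ S) {U P M : Set T}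
    (h : Side S x U P M) {p m : T} (hp : p ∈ P) (hm : m ∈ M) {y : T} (hy : y ∉ S) :
    connectedComponentIn Sᶜ y = connectedComponentIn Sᶜ p ∨
      connectedComponentIn Sᶜ y = connectedComponentIn Sᶜ m := by
  rcases h.sub_or h.mem (subset_closure_comp hS hSc hside hy hx) with h1 | h1
  · exact Or.inl (connectedComponentIn_eq (h1 hp))
  · exact Or.inr (connectedComponentIn_eq (h1 hm))

end P073.JBs
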