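import Vale.Agent.P073Z.Sk1

/-!
# Local flatness of PL surfaces in space
-/

open Set Metric Topology Filter

namespace P073.JBs

theorem conicalOn_abs {E : Type} [NormedAddCommGroup E] [NormedSpace ℝ E] {a : E → ℝ}
    {X : Set E} (ha : ConicalOn a X) (hc : ContinuousOn a X) : ConicalOn (fun y => |a y|) X := by
  have := ha.rmax ha.neg hc hc.neg
  exact this.congr fun y _ => abs_eq_max_neg

/-- the sup norm is PL -/
theorem conicalOn_norm_pi (n : ℕ) : ConicalOn (fun y : Fin n → ℝ => ‖y‖) univ := by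
  have hU : ConicalSet (univ : Set (Fin n → ℝ)) := IsOpen.conicalSet isOpen_univ
  have key : ∀ s : Finset (Fin n), ∃ g : (Fin n → ℝ) → ℝ, Continuous g ∧ ConicalOn g univ ∧
      ∀ y r, 0 ≤ r → (0 ≤ g y ∧ (g y ≤ r ↔ ∀ i ∈ s, |y i| ≤ r)) := by
    intro s
    induction s using Finset.induction_on with
    | empty =>
      exact ⟨fun _ => 0, continuous_const, conicalOn_const 0 hU, fun y r hr => by simp [hr]⟩
    | insert i s hi ih =>
      obtain ⟨g, g1, g2, g3⟩ := ih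
      have h1 : ConicalOn (fun y : Fin n → ℝ => y i) univ :=
        conicalOn_clm (ContinuousLinearMap.proj (R := ℝ) (φ := fun _ : Fin n => ℝ) i)
      have h2 : Continuous (fun y : Fin n → ℝ => |y i|) := by fun_prop
      refine ⟨fun y => max |y i| (g y), h2.max g1, ?_, fun y r hr => ⟨?_, ?_⟩⟩
      · exact (conicalOn_abs h1 (continuous_apply i).continuousOn).rmax g2 h2.continuousOn
          g1.continuousOn
      · exact le_max_of_le_left (abs_nonneg _)
      · rw [max_le_iff, (g3 y r hr).2, Finset.forall_mem_insert]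
  obtain ⟨g, -, g2, g3⟩ := key Finset.univ
  refine g2.congr fun y _ => ?_
  apply le_antisymm
  · have h0 := (g3 y 0 le_rfl).1
    rw [pi_norm_le_iff_of_nonneg h0]
    intro i
    exact ((g3 y (g y) h0).2.1 le_rfl) i (Finset.mem_univ i)
  · exact (g3 y _ (norm_nonneg y)).2.2 fun i _ => norm_le_pi_norm y i

/-- the plane with the product norm as functions on two points -/
noncomputable def j2 : (ℝ × ℝ) →L[ℝ] E2 :=
  ContinuousLinearMap.pi fun i => ![ContinuousLinearMap.fst ℝ ℝ ℝ, ContinuousLinearMap.snd ℝ ℝ ℝ] i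

theorem j2_apply (p : ℝ × ℝ) : j2 p = ![p.1, p.2] := by
  ext i
  fin_cases i <;> rfl

theorem norm_j2 (p : ℝ × ℝ) : ‖j2 p‖ = ‖p‖ := by
  rw [j2_apply]
  apply le_antisymm
  · rw [pi_norm_le_iff_of_nonneg (norm_nonneg p)]
    intro i
    fin_cases i
    · exact norm_fst_le p
    · exact norm_snd_le p
  · rw [Prod.norm_def]
    exact max_le (norm_le_pi_norm (![p.1, p.2] : E2) 0) (norm_le_pi_norm (![p.1, p.2] : E2) 1)

theorem j2_surj (v : E2) : j2 (v 0, v 1) = v := by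
  rw [j2_apply]
  ext i
  fin_cases i <;> rfl

theorem j2_inj : Function.Injective j2 := by
  intro p q h
  rw [j2_apply, j2_apply] at h
  exact Prod.ext (congrFun h 0) (congrFun h 1)

/-- the horizontal plane in space -/
noncomputable def j3 : (ℝ × ℝ) →L[ℝ] E3 :=
  ContinuousLinearMap.pi fun i =>
    ![ContinuousLinearMap.fst ℝ ℝ ℝ, ContinuousLinearMap.snd ℝ ℝ ℝ, 0] i

theorem j3_apply (p : ℝ × ℝ) : j3 p = ![p.1, p.2, 0] := by
  ext i
  fin_cases i <;> rfl

theorem norm_j3 (p : ℝ × ℝ) : ‖j3 p‖ = ‖p‖ := by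
  rw [j3_apply]
  apply le_antisymm
  · rw [pi_norm_le_iff_of_nonneg (norm_nonneg p)]
    intro i
    fin_cases i
    · exact norm_fst_le p
    · exact norm_snd_le p
    · simp
  · rw [Prod.norm_def]
    exact max_le (norm_le_pi_norm (![p.1, p.2, 0] : E3) 0) (norm_le_pi_norm (![p.1, p.2, 0] : E3) 1)

theorem j3_surj (v : E3) (hv : v 2 = 0) : j3 (v 0, v 1) = v := by
  rw [j3_apply]
  ext i
  fin_cases i
  · rfl
  · rfl
  · exact hv.symm

theorem j3_inj : Function.Injective j3 := by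
  intro p q h
  rw [j3_apply, j3_apply] at h
  exact Prod.ext (congrFun h 0) (congrFun h 1)

/-- a norm preserving homogeneous PL embedding of the plane is straightened by a homogeneous
homeomorphism of the space -/
theorem straighten (hcos : COS) {ψ : ℝ × ℝ → E3} (hc : Continuous ψ) (hk : ConicalOn ψ univ)
    (hi : Function.Injective ψ) (hn : ∀ v, ‖ψ v‖ = ‖v‖)
    (hh : ∀ v, ∀ t : ℝ, 0 ≤ t → ψ (t • v) = t • ψ v) :
    ∃ Φ : ConHomeo (univ : Set E3) (univ : Set E3), Φ.toFun 0 = 0 ∧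
      ∀ z ∈ closedBall (0 : E3) 1, (z ∈ range ψ ↔ Φ.toFun z 2 = 0) := by
  have hsc : ConicalSet (sphere (0 : ℝ × ℝ) 1) := locCone_sphere_prod.conicalSet
  let α : ConHomeo (sphere (0 : ℝ × ℝ) 1) (ψ '' sphere 0 1) :=
    ConHomeo.ofCompact (isCompact_sphere _ _) ψ hc.continuousOn hi.injOn
      (hk.mono hsc (subset_univ _)) rfl
  let β : ConHomeo (sphere (0 : ℝ × ℝ) 1) (j3 '' sphere 0 1) :=
    ConHomeo.ofCompact (isCompact_sphere _ _) j3 j3.continuous.continuousOn j3_inj.injOn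
      ((conicalOn_clm j3).mono hsc (subset_univ _)) rfl
  have hS : ConSphere 2 (sphere (0 : E3) 1) := ⟨ConHomeo.refl (conicalSet_sphere_pi 3)⟩
  have hL : ψ '' sphere 0 1 ⊆ sphere (0 : E3) 1 := by
    rintro _ ⟨v, hv, rfl⟩
    rw [mem_sphere_zero_iff_norm] at hv ⊢
    rw [hn, hv]
  have hQ : j3 '' sphere 0 1 ⊆ sphere (0 : E3) 1 := by
    rintro _ ⟨v, hv, rfl⟩
    rw [mem_sphere_zero_iff_norm] at hv ⊢
    rw [norm_j3, hv]
  obtain ⟨D₁, D₂, a1, a2, a3, a4, -⟩ := hcos.1 hS ⟨α⟩ hL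
  obtain ⟨F₁, F₂, b1, b2, b3, b4, -⟩ := hcos.1 hS ⟨β⟩ hQ
  let lam := α.symm.trans β
  obtain ⟨σ₁, s1, s2⟩ := a1.exists_extend b1 lam
  obtain ⟨σ₂, t1, t2⟩ := a2.exists_extend b2 lam
  have hag : EqOn σ₁.toFun σ₂.toFun (D₁ ∩ D₂) := by
    rw [a4]
    intro y hy
    rw [s1 hy, t1 hy]
  have himg : F₁ ∩ F₂ ⊆ σ₁.toFun '' (D₁ ∩ D₂) := by
    rw [a4, b4, s2]
  let σ : ConHomeo (sphere (0 : E3) 1) (sphere (0 : E3) 1) :=
    (ConHomeo.glue σ₁ σ₂ a1.isClosed a2.isClosed b1.isClosed b2.isClosed hag himg).cast a3 b3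
  have hσ : σ.toFun '' (ψ '' sphere 0 1) = j3 '' sphere 0 1 := by
    rw [← s2]
    refine image_congr fun y hy => ?_
    exact ConHomeo.glue_left σ₁ σ₂ a1.isClosed a2.isClosed b1.isClosed b2.isClosed hag himg
      (a1.1 hy)
  let Ψ : ConHomeo (closedBall (0 : E3) 1) (closedBall (0 : E3) 1) :=
    (ConHomeo.cone (rayBase_sphere_pi 3) (rayBase_sphere_pi 3) σ).cast
      (coneSet_sphere_pi 3) (coneSet_sphere_pi 3)
  have hΨ : ∀ s ∈ Icc (0:ℝ) 1, ∀ u ∈ sphere (0 : E3) 1, Ψ.toFun (s • u) = s • σ.toFun u :=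
    fun s hs u hu => ConHomeo.cone_smul (rayBase_sphere_pi 3) (rayBase_sphere_pi 3) σ hs hu
  have hrep : ∀ z ∈ closedBall (0 : E3) 1, ∃ s ∈ Icc (0:ℝ) 1, ∃ u ∈ sphere (0 : E3) 1,
      z = s • u := by
    intro z hz
    rw [← coneSet_sphere_pi 3] at hz
    exact hz
  obtain ⟨Φ, hΦ⟩ := Ψ.exists_homogeneous_extend (closedBall_mem_nhds _ one_pos)
    (closedBall_mem_nhds _ one_pos) (by
      intro z hz s hs
      obtain ⟨a, ha, u, hu, rfl⟩ := hrep z hz
      have hsa : s * a ∈ Icc (0:ℝ) 1 := ⟨mul_nonneg hs.1 ha.1, mul_le_one₀ hs.2 ha.1 ha.2⟩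
      refine ⟨?_, ?_⟩
      · rw [mem_closedBall_zero_iff] at hz ⊢
        exact norm_smul_le_of_mem_Icc hs hz
      · rw [smul_smul, hΨ _ hsa u hu, hΨ a ha u hu, smul_smul])
  have hz0 : Φ.toFun 0 = 0 := by
    obtain ⟨u, hu⟩ : (sphere (0 : E3) 1).Nonempty := NormedSpace.sphere_nonempty.2 zero_le_one
    rw [hΦ (mem_closedBall_self zero_le_one)]
    have := hΨ 0 ⟨le_rfl, zero_le_one⟩ u hu
    simpa using this
  refine ⟨Φ, hz0, fun z hz => ?_⟩
  obtain ⟨s, hs, u, hu, rfl⟩ := hrep z hz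
  rcases eq_or_lt_of_le hs.1 with h0 | h0
  · rw [← h0, zero_smul, hz0]
    refine ⟨fun _ => rfl, fun _ => ⟨0, ?_⟩⟩
    have := hn 0
    rw [norm_zero, norm_eq_zero] at this
    exact this
  · rw [hΦ hz, hΨ s hs u hu]
    have hu1 : ‖u‖ = 1 := mem_sphere_zero_iff_norm.1 hu
    constructor
    · rintro ⟨v, hv⟩
      have h1 : u = ψ (s⁻¹ • v) := by
        rw [hh v _ (inv_nonneg.2 hs.1), hv, smul_smul, inv_mul_cancel₀ h0.ne', one_smul]
      have h2 : u ∈ ψ '' sphere 0 1 := by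
        refine ⟨_, ?_, h1.symm⟩
        rw [mem_sphere_zero_iff_norm, ← hn, ← h1, hu1]
      have h3 : σ.toFun u ∈ j3 '' sphere 0 1 := hσ ▸ mem_image_of_mem _ h2
      obtain ⟨w, -, hw⟩ := h3
      rw [← hw, j3_apply]
      simp
    · intro h
      have h1 : σ.toFun u 2 = 0 := by
        have : s * σ.toFun u 2 = 0 := h
        exact (mul_eq_zero.1 this).resolve_left h0.ne'
      have h2 : σ.toFun u ∈ j3 '' sphere 0 1 := by
        refine ⟨_, ?_, j3_surj _ h1⟩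
        rw [mem_sphere_zero_iff_norm, ← norm_j3, j3_surj _ h1]
        exact mem_sphere_zero_iff_norm.1 (σ.mapsTo hu)
      rw [← hσ] at h2
      obtain ⟨u', hu', he⟩ := h2
      have h3 : u' = u := σ.injOn (hL hu') hu he
      obtain ⟨v, -, hv⟩ := hu'
      exact ⟨s • v, by rw [hh v s hs.1, hv, h3]⟩

/-- a homogeneous parametrisation of the germ of a disc at an interior point -/
theorem exists_param {C B : Set E3} {x : E3} (h : ConBall 2 C B) (hx : x ∈ C \ B) :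
    ∃ ψ : E2 → E3, Continuous ψ ∧ ConicalOn ψ univ ∧ Function.Injective ψ ∧
      (∀ v, ∀ t : ℝ, 0 ≤ t → ψ (t • v) = t • ψ v) ∧
      (∀ᶠ v in 𝓝 (0 : E2), x + ψ v ∈ C) ∧ ∀ᶠ y in 𝓝[C] x, y - x ∈ range ψ := by
  obtain ⟨hBC, φ, hφ⟩ := h
  set x0 := φ.toFun x with hx0
  have hx0b : x0 ∈ closedBall (0 : E2) 1 := φ.mapsTo hx.1
  have hx01 : ‖x0‖ < 1 := by
    rcases lt_or_eq_of_le (mem_closedBall_zero_iff.1 hx0b) with h1 | h1
    · exact h1
    · exfalso
      have : x0 ∈ φ.toFun '' B := by rw [hφ]; exact mem_sphere_zero_iff_norm.2 h1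
      obtain ⟨b, hb, he⟩ := this
      exact hx.2 (φ.injOn (hBC hb) hx.1 he ▸ hb)
  have hxx : φ.invFun x0 = x := φ.left_inv hx.1
  obtain ⟨r₀, hr₀, hcon⟩ := φ.conical_inv x0 hx0b
  obtain ⟨r, hr, hr1, hr2⟩ : ∃ r : ℝ, 0 < r ∧ r ≤ r₀ ∧ r ≤ 1 - ‖x0‖ :=
    ⟨min r₀ (1 - ‖x0‖), lt_min hr₀ (by linarith), min_le_left _ _, min_le_right _ _⟩
  have hin : ∀ v ∈ closedBall (0 : E2) r, x0 + v ∈ closedBall (0 : E2) 1 := by
    intro v hv
    rw [mem_closedBall_zero_iff] at hv ⊢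
    linarith [norm_add_le x0 v]
  have hKc : ConicalSet (closedBall (0 : E2) r) := Convex.conicalSet (convex_closedBall _ _)
  let f : E2 → E3 := fun v => φ.invFun (x0 + v) - x
  have hadd : ConicalOn (fun v : E2 => x0 + v) (closedBall 0 r) :=
    (conicalOn_const x0 hKc).add (conicalOn_id hKc)
  have hf1 : ContinuousOn f (closedBall 0 r) :=
    (φ.cont_inv.comp (continuous_const.add continuous_id).continuousOn hin).sub continuousOn_const
  have hf2 : ConicalOn f (closedBall 0 r) :=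
    (φ.conical_inv.comp hadd hin (continuous_const.add continuous_id).continuousOn).sub
      (conicalOn_const x hKc)
  have hf3 : ∀ v ∈ closedBall (0 : E2) r, ∀ s ∈ Icc (0:ℝ) 1,
      s • v ∈ closedBall (0 : E2) r ∧ f (s • v) = s • f v := by
    intro v hv s hs
    have hv' := mem_closedBall_zero_iff.1 hv
    refine ⟨mem_closedBall_zero_iff.2 (norm_smul_le_of_mem_Icc hs hv'), ?_⟩
    show φ.invFun (x0 + s • v) - x = s • (φ.invFun (x0 + v) - x)
    rw [(hcon v (hv'.trans hr1) (hin v hv) s hs).2, hxx, add_sub_cancel_left]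
  obtain ⟨ψ, p1, p2, p3⟩ := exists_homogeneous_map (closedBall_mem_nhds _ hr) f hf1 hf2 hf3
  have hψf : ∀ v ∈ closedBall (0 : E2) r, ψ v = f v := by
    intro v hv
    have := p3 1 v one_pos (by simpa using hv)
    simpa using this
  have hbig : ∀ v : E2, ∀ a : ℝ, ‖v‖ / r < a → 0 < a ∧ a⁻¹ • v ∈ closedBall (0 : E2) r := by
    intro v a ha
    have ha0 : 0 < a := lt_of_le_of_lt (by positivity) ha
    refine ⟨ha0, ?_⟩
    rw [mem_closedBall_zero_iff, norm_smul, norm_inv, Real.norm_of_nonneg ha0.le,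
      inv_mul_le_iff₀ ha0]
    rw [div_lt_iff₀ hr] at ha
    exact ha.le
  have hhom : ∀ v, ∀ t : ℝ, 0 ≤ t → ψ (t • v) = t • ψ v := by
    intro v t ht
    rcases eq_or_lt_of_le ht with h0 | h0
    · rw [← h0, zero_smul, zero_smul, hψf 0 (mem_closedBall_self hr.le)]
      show φ.invFun (x0 + 0) - x = 0
      rw [add_zero, hxx, sub_self]
    · obtain ⟨ha0, ha⟩ := hbig v (‖v‖ / r + 1) (by linarith)
      set a := ‖v‖ / r + 1
      have e : (t * a)⁻¹ • t • v = a⁻¹ • v := by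
        rw [smul_smul]
        congr 1
        field_simp
      rw [p3 (t * a) (t • v) (by positivity) (by rw [e]; exact ha), e, p3 a v ha0 ha, smul_smul]
  refine ⟨ψ, p1, p2, ?_, hhom, ?_, ?_⟩
  · intro v w hvw
    obtain ⟨ha0, ha⟩ := hbig v (‖v‖ / r + ‖w‖ / r + 1) (by
      have : 0 ≤ ‖w‖ / r := by positivity
      linarith)
    obtain ⟨-, hb⟩ := hbig w (‖v‖ / r + ‖w‖ / r + 1) (by
      have : 0 ≤ ‖v‖ / r := by positivity
      linarith)
    set a := ‖v‖ / r + ‖w‖ / r + 1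
    rw [p3 a v ha0 ha, p3 a w ha0 hb] at hvw
    have h1 := smul_right_injective E3 ha0.ne' hvw
    have h2 : φ.invFun (x0 + a⁻¹ • v) = φ.invFun (x0 + a⁻¹ • w) := sub_left_injective h1
    have h3 := φ.symm.injOn (hin _ ha) (hin _ hb) h2
    exact smul_right_injective E2 (inv_ne_zero ha0.ne') (add_left_cancel h3)
  · filter_upwards [closedBall_mem_nhds (0 : E2) hr] with v hv
    rw [hψf v hv]
    show x + (φ.invFun (x0 + v) - x) ∈ C
    rw [add_sub_cancel]
    exact φ.mapsTo_inv (hin v hv)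
  · have h1 : ∀ᶠ y in 𝓝[C] x, φ.toFun y ∈ closedBall x0 r :=
      (φ.cont x hx.1) (closedBall_mem_nhds _ hr)
    filter_upwards [h1, self_mem_nhdsWithin] with y hy hyC
    have h2 : φ.toFun y - x0 ∈ closedBall (0 : E2) r := by
      rw [mem_closedBall_zero_iff, ← dist_eq_norm]
      exact hy
    refine ⟨φ.toFun y - x0, ?_⟩
    rw [hψf _ h2]
    show φ.invFun (x0 + (φ.toFun y - x0)) - x = y - x
    rw [add_sub_cancel, φ.left_inv hyC]

end P073.JBs

namespace P073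

open JBs

theorem lfl_of (hstar : STAR) (hcos : COS) : LFL := by
  intro S C B x h hx hCS hn
  obtain ⟨ψ, p1, p2, p3, p4, p5, p6⟩ := exists_param h hx
  have hψ0 : ψ 0 = 0 := by
    have := p4 0 0 le_rfl
    simpa using this
  have hN : ConicalOn (fun v => ‖ψ v‖) univ :=
    (conicalOn_norm_pi 3).comp p2 (mapsTo_univ _ _) p1.continuousOn
  obtain ⟨Θ, q1, q2, -, -⟩ := hstar (E := E2) (N₁ := fun v => ‖v‖) (N₂ := fun v => ‖ψ v‖)
    (ι := Empty) (fun _ => ∅) ⟨continuous_norm.continuousOn, conicalOn_norm_pi 2⟩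
    ⟨p1.norm.continuousOn, hN⟩
    (fun v t ht => ⟨by rw [norm_smul, Real.norm_of_nonneg ht],
      by rw [p4 v t ht, norm_smul, Real.norm_of_nonneg ht]⟩)
    (fun v hv => ⟨norm_pos_iff.2 hv, norm_pos_iff.2 fun h0 => hv (p3 (h0.trans hψ0.symm))⟩)
    (fun i => i.elim)
  have hΘ0 : Θ.toFun 0 = 0 := by
    have := q2 0 0 le_rfl
    simpa using this
  let χ : ℝ × ℝ → E3 := fun p => ψ (Θ.toFun (j2 p))
  have c1 : Continuous χ := p1.comp (Θ.continuous.comp j2.continuous)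
  have c2 : ConicalOn χ univ :=
    p2.comp (Θ.conical.comp (conicalOn_clm j2) (mapsTo_univ _ _) j2.continuous.continuousOn)
      (mapsTo_univ _ _) (Θ.continuous.comp j2.continuous).continuousOn
  have c3 : Function.Injective χ := p3.comp (Θ.injective.comp j2_inj)
  have c4 : ∀ p, ‖χ p‖ = ‖p‖ := fun p => (q1 (j2 p)).trans (norm_j2 p)
  have c5 : ∀ p, ∀ t : ℝ, 0 ≤ t → χ (t • p) = t • χ p := by
    intro p t ht
    show ψ (Θ.toFun (j2 (t • p))) = t • ψ (Θ.toFun (j2 p))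
    rw [map_smul, q2 _ t ht, p4 _ t ht]
  obtain ⟨Φ, f1, f2⟩ := straighten hcos c1 c2 c3 c4 c5
  let τ : ConHomeo (univ : Set E3) (univ : Set E3) :=
    (ConHomeo.translate (-x) (IsOpen.conicalSet isOpen_univ)).cast rfl (by
      ext y; simp only [image_univ, mem_range, mem_univ, iff_true]; exact ⟨y + x, by abel⟩)
  have hτ : ∀ y, (τ.trans Φ).toFun y = Φ.toFun (y - x) := by
    intro y
    show Φ.toFun (y + -x) = _
    rw [sub_eq_add_neg]
  refine ⟨τ.trans Φ, by rw [hτ, sub_self, f1], ?_⟩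
  -- small parameters give points of `C`
  have hsm : ∀ᶠ p in 𝓝 (0 : ℝ × ℝ), x + χ p ∈ C := by
    have h1 : Tendsto (fun p => Θ.toFun (j2 p)) (𝓝 0) (𝓝 0) := by
      have := (Θ.continuous.comp j2.continuous).tendsto 0
      simpa [hΘ0, Function.comp_def] using this
    exact h1.eventually p5
  obtain ⟨ρ, hρ, hb⟩ := Metric.eventually_nhds_iff_ball.1 hsm
  have h1 : ∀ᶠ y in 𝓝 x, y ∈ S → y ∈ C := eventually_nhdsWithin_iff.1 hn
  have h2 : ∀ᶠ y in 𝓝 x, y ∈ C → y - x ∈ range ψ := eventually_nhdsWithin_iff.1 p6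
  filter_upwards [h1, h2, ball_mem_nhds x hρ, closedBall_mem_nhds x one_pos] with y a1 a2 a3 a4
  have hz : y - x ∈ closedBall (0 : E3) 1 := by
    rw [mem_closedBall_zero_iff, ← dist_eq_norm]
    exact a4
  rw [hτ, ← f2 _ hz]
  constructor
  · intro hy
    obtain ⟨v, hv⟩ := a2 (a1 hy)
    refine ⟨((Θ.invFun v) 0, (Θ.invFun v) 1), ?_⟩
    show ψ (Θ.toFun (j2 _)) = _
    rw [j2_surj, Θ.apply_inv, hv]
  · rintro ⟨p, hp⟩
    have h3 : p ∈ ball (0 : ℝ × ℝ) ρ := by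
      rw [mem_ball_zero_iff, ← c4, hp, ← dist_eq_norm]
      exact a3
    have h4 := hb p h3
    rw [hp, add_sub_cancel] at h4
    exact hCS h4

end P073
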